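import Vale.Agent.Lib.P154.Neg.LP.Base

/-!
The data of a certificate for a restricted range of `theta`, with all its checks.
-/

namespace Vale.Agent.Lib.P154.Neg.B4765

open Vale.Agent.Lib.P154.Neg.Kron Vale.Agent.Lib.P154.Neg Vale.Agent.Lib.P154.Neg.Cst

def tX_1 : CT := (.leaf [130, 6371, 312180] [48, 48, 48])
def tX_4 : CT := (.leaf [169, 8282, 405819] [48, 48, 48])
def tX_5 : CT := (.s12 (.leaf [171, 8380, 410621] [48, 48, 48]) (.s02 (.leaf [202, 9899, 485052] [48, 48, 48]) (.s01 (.leaf [224, 10977, 537874] [48, 48, 48]) (.s12 (.leaf [230, 11271, 552280] [48, 48, 48]) (.leaf [226, 11075, 542676] [48, 48, 48])))))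
def tX_3 : CT := .s01 tX_4 tX_5
def tX_7 : CT := (.leaf [170, 8331, 408220] [48, 48, 48])
def tX_8 : CT := (.s12 (.leaf [181, 8870, 434631] [48, 48, 48]) (.s02 (.leaf [196, 9605, 470646] [48, 48, 48]) (.s12 (.leaf [205, 10046, 492255] [48, 48, 48]) (.s02 (.leaf [215, 10536, 516265] [48, 48, 48]) (.leaf [198, 9703, 475448] [48, 48, 48])))))
def tX_6 : CT := .s02 tX_7 tX_8
def tX_2 : CT := .s12 tX_3 tX_6
def tX_0 : CT := .s02 tX_1 tX_2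
def tY1_5 : CT := (.leaf [625, 30626, 1500675] [48, 48, 48])
def tY1_6 : CT := (.leaf [654, 32047, 1570304] [48, 48, 48])
def tY1_4 : CT := .s02 tY1_5 tY1_6
def tY1_7 : CT := (.leaf [643, 31508, 1543893] [48, 48, 48])
def tY1_3 : CT := .s02 tY1_4 tY1_7
def tY1_8 : CT := (.leaf [630, 30871, 1512680] [48, 48, 48])
def tY1_2 : CT := .s02 tY1_3 tY1_8
def tY1_9 : CT := (.leaf [613, 30038, 1471863] [48, 48, 48])
def tY1_1 : CT := .s02 tY1_2 tY1_9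
def tY1_11 : CT := (.leaf [604, 29597, 1450254] [48, 48, 48])
def tY1_12 : CT := (.leaf [611, 29940, 1467061] [48, 48, 48])
def tY1_10 : CT := .s12 tY1_11 tY1_12
def tY1_0 : CT := .s02 tY1_1 tY1_10
def tY2_0 : CT := (.leaf [432, 15985, 591446] [36, 36, 36])
def tQ1_0 : BT := (.split 3 (6) (.split 1 (2) (.split 3 (3) (.leaf [499, 10979, 120770, 1932321] [21, 10, 15, 6]) (.leaf [500, 11001, 121012, 1936193] [21, 10, 15, 6])) (.split 3 (3) (.leaf [499, 10979, 120770, 1932321] [21, 10, 15, 6]) (.leaf [500, 11001, 121012, 1936193] [21, 10, 15, 6]))) (.leaf [501, 11023, 121254, 1940065] [21, 10, 15, 6]))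
def tQ3_4 : BT := (.split 1 (1) (.leaf [516, 8257, 90828, 1453249] [15, 10, 15, 6]) (.split 0 (4674) (.split 3 (11) (.leaf [515, 8241, 90652, 1450433] [15, 10, 15, 6]) (.leaf [516, 8257, 90828, 1453249] [15, 10, 15, 6])) (.leaf [517, 8273, 91004, 1456065] [15, 10, 15, 6])))
def tQ3_6 : BT := (.split 0 (4674) (.split 3 (33) (.leaf [517, 8273, 91004, 1456065] [15, 10, 15, 6]) (.split 0 (3865) (.leaf [517, 8273, 91004, 1456065] [15, 10, 15, 6]) (.leaf [517, 8273, 91004, 1456065] [15, 10, 15, 6]))) (.leaf [517, 8273, 91004, 1456065] [15, 10, 15, 6]))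
def tQ3_7 : BT := (.split 0 (4674) (.leaf [517, 8273, 91004, 1456065] [15, 10, 15, 6]) (.leaf [517, 8273, 91004, 1456065] [15, 10, 15, 6]))
def tQ3_5 : BT := .split 1 (1) tQ3_6 tQ3_7
def tQ3_3 : BT := .split 3 (22) tQ3_4 tQ3_5
def tQ3_8 : BT := (.leaf [518, 8289, 91180, 1458881] [15, 10, 15, 6])
def tQ3_2 : BT := .split 0 (6292) tQ3_3 tQ3_8
def tQ3_9 : BT := (.leaf [519, 8305, 91356, 1461697] [15, 10, 15, 6])
def tQ3_1 : BT := .split 0 (9528) tQ3_2 tQ3_9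
def tQ3_12 : BT := (.split 0 (6292) (.split 3 (22) (.split 3 (11) (.leaf [516, 8257, 90828, 1453249] [15, 10, 15, 6]) (.leaf [517, 8273, 91004, 1456065] [15, 10, 15, 6])) (.leaf [517, 8273, 91004, 1456065] [15, 10, 15, 6])) (.leaf [518, 8289, 91180, 1458881] [15, 10, 15, 6]))
def tQ3_13 : BT := (.split 3 (22) (.split 0 (6292) (.split 3 (11) (.leaf [517, 8273, 91004, 1456065] [15, 10, 15, 6]) (.leaf [517, 8273, 91004, 1456065] [15, 10, 15, 6])) (.leaf [518, 8289, 91180, 1458881] [15, 10, 15, 6])) (.leaf [518, 8289, 91180, 1458881] [15, 10, 15, 6]))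
def tQ3_11 : BT := .split 1 (3) tQ3_12 tQ3_13
def tQ3_14 : BT := (.leaf [521, 8337, 91708, 1467329] [15, 10, 15, 6])
def tQ3_10 : BT := .split 0 (9528) tQ3_11 tQ3_14
def tQ3_0 : BT := .split 1 (2) tQ3_1 tQ3_10

/-- the data -/
def C : Cst where
  A := ⟨3, 3, 0, 3, 2, 1⟩
  a := (424, 45)
  b := (148, 5)
  c := (156, 5)
  r1 := (3, 4)
  r2 := (11, 12)
  rho1 := (0, 1)
  rho2 := (11, 12)
  g := (9, 25000)
  er := (1, 2)
  kap := (0, 1)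
  thm := (11, 200)
  t1 := (473, 1000)
  t2 := (953, 2000)
  m0 := (2953, 6000)
  kp0 := (3, 2)
  W := (.add (.add (.add (.add (.add (.add (.add (.mul (.rat (-1029) 50000) (.pow (.var 1) 2)) (.mul (.rat (1) 2) (.var 0))) (.mul (.mul (.rat (20289) 1000000) (.var 0)) (.var 1))) (.mul (.mul (.rat (-1) 100) (.var 0)) (.pow (.var 1) 2))) (.mul (.rat (1273) 50000) (.pow (.var 0) 2))) (.mul (.mul (.rat (-157) 500000) (.pow (.var 0) 2)) (.var 1))) (.mul (.rat (-3273) 1000000) (.pow (.var 0) 3))) (.mul (.rat (3539) 1000000) (.pow (.var 0) 4)))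
  V1h := (.add (.add (.add (.add (.add (.add (.add (.add (.mul (.rat (-1) 16) (.var 1)) (.mul (.rat (-26183) 1000000) (.pow (.var 1) 2))) (.mul (.rat (1) 8) (.var 0))) (.mul (.mul (.rat (-139697) 10000000) (.var 0)) (.var 1))) (.mul (.mul (.rat (714767) 10000000) (.var 0)) (.pow (.var 1) 2))) (.mul (.rat (87289) 5000000) (.pow (.var 0) 2))) (.mul (.mul (.rat (-184359) 5000000) (.pow (.var 0) 2)) (.var 1))) (.mul (.rat (84413) 10000000) (.pow (.var 0) 3))) (.mul (.rat (-611) 250000) (.pow (.var 0) 4)))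
  V2h := (.add (.add (.add (.add (.mul (.rat (1) 216) (.var 1)) (.mul (.rat (-7351) 2000000) (.pow (.var 1) 2))) (.mul (.mul (.rat (13677) 10000000) (.var 0)) (.var 1))) (.mul (.rat (-371) 625000) (.pow (.var 0) 2))) (.mul (.rat (1587) 5000000) (.pow (.var 0) 3)))
  Xi := (.add (.add (.add (.rat (61) 15) (.mul (.rat (-6634051) 1000000) (.var 0))) (.mul (.rat (4366701) 500000) (.pow (.var 0) 2))) (.mul (.rat (-2025571) 125000) (.pow (.var 0) 3)))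
  Ek := (.rat 0 1)
  Sz := (.add (.add (.add (.add (.mul (.rat (1) 3) (.var 0)) (.mul (.rat (1) 9) (.pow (.var 0) 2))) (.mul (.rat (5) 81) (.pow (.var 0) 3))) (.mul (.rat (10) 243) (.pow (.var 0) 4))) (.mul (.rat (22) 729) (.pow (.var 0) 5)))
  a0 := 500
  b0 := 560
  c0 := 890
  bRho := (0, 191, 1000)
  bBeta := (0, 4, 4)
  bT := (946, 953, 2000)
  bKap := (0, 12, 8)
  bEps := (0, 1, 1000)
  bSig := (0, 47, 200)
  bNu := (0, 817, 1000)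
  bTh := (0, 44, 800)
  bZ := (0, 3590150177, 4000000000)
  tX := tX_0
  tY1 := tY1_0
  tY2 := tY2_0
  tM1 := (.leaf [11, 78, 547] [6, 6, 6])
  tM2 := (.leaf [10, 71, 498] [6, 6, 6])
  tN1 := (.leaf [13, 92, 645] [6, 6, 6])
  tN2 := (.leaf [12, 85, 596] [6, 6, 6])
  tQ1 := tQ1_0
  tQ2 := (.leaf [602, 13245, 211921, 2331132] [21, 15, 10, 15])
  tW := (.leaf [59, 532] [8, 8])
  tK := (.leaf [141, 988] [6, 5])
  tS1 := (.leaf [101, 506] [4, 4])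
  tS2 := (.leaf [107, 536] [4, 4])
  tC := (.leaf [86, 345, 1381] [3, 3, 4])
  tXi := (.leaf [54, 217] [3, 0])
  tE := (.leaf [1, 2] [0, 0])
  tZ := (.leaf [525] [15])

/-- the further data -/
def X : Ext where
  rho0 := (191, 1000)
  bR3 := (3056, 16000, 16000)
  bRW := (0, 1, 1)
  tQ3 := tQ3_0

def btQ1_root : List (ℤ × ℤ × ℕ) := [C.bRho, C.bBeta, C.bT, C.bKap]

def btQ3_root : List (ℤ × ℤ × ℕ) := [X.bR3, C.bBeta, C.bT, C.bTh]

def btQ3_0l : List (ℤ × ℤ × ℕ) := btQ3_root.set 1 ((btQ3_root.getD 1 (0, 1, 1)).1, (2), (btQ3_root.getD 1 (0, 1, 1)).2.2)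

def btQ3_0r : List (ℤ × ℤ × ℕ) := btQ3_root.set 1 ((2), (btQ3_root.getD 1 (0, 1, 1)).2.1, (btQ3_root.getD 1 (0, 1, 1)).2.2)

def btQ3_1l : List (ℤ × ℤ × ℕ) := btQ3_0l.set 0 ((btQ3_0l.getD 0 (0, 1, 1)).1, (9528), (btQ3_0l.getD 0 (0, 1, 1)).2.2)

def btQ3_1r : List (ℤ × ℤ × ℕ) := btQ3_0l.set 0 ((9528), (btQ3_0l.getD 0 (0, 1, 1)).2.1, (btQ3_0l.getD 0 (0, 1, 1)).2.2)

def btQ3_2l : List (ℤ × ℤ × ℕ) := btQ3_1l.set 0 ((btQ3_1l.getD 0 (0, 1, 1)).1, (6292), (btQ3_1l.getD 0 (0, 1, 1)).2.2)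

def btQ3_2r : List (ℤ × ℤ × ℕ) := btQ3_1l.set 0 ((6292), (btQ3_1l.getD 0 (0, 1, 1)).2.1, (btQ3_1l.getD 0 (0, 1, 1)).2.2)

def btQ3_3l : List (ℤ × ℤ × ℕ) := btQ3_2l.set 3 ((btQ3_2l.getD 3 (0, 1, 1)).1, (22), (btQ3_2l.getD 3 (0, 1, 1)).2.2)

def btQ3_3r : List (ℤ × ℤ × ℕ) := btQ3_2l.set 3 ((22), (btQ3_2l.getD 3 (0, 1, 1)).2.1, (btQ3_2l.getD 3 (0, 1, 1)).2.2)

def btQ3_5l : List (ℤ × ℤ × ℕ) := btQ3_3r.set 1 ((btQ3_3r.getD 1 (0, 1, 1)).1, (1), (btQ3_3r.getD 1 (0, 1, 1)).2.2)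

def btQ3_5r : List (ℤ × ℤ × ℕ) := btQ3_3r.set 1 ((1), (btQ3_3r.getD 1 (0, 1, 1)).2.1, (btQ3_3r.getD 1 (0, 1, 1)).2.2)

def btQ3_10l : List (ℤ × ℤ × ℕ) := btQ3_0r.set 0 ((btQ3_0r.getD 0 (0, 1, 1)).1, (9528), (btQ3_0r.getD 0 (0, 1, 1)).2.2)

def btQ3_10r : List (ℤ × ℤ × ℕ) := btQ3_0r.set 0 ((9528), (btQ3_0r.getD 0 (0, 1, 1)).2.1, (btQ3_0r.getD 0 (0, 1, 1)).2.2)

def btQ3_11l : List (ℤ × ℤ × ℕ) := btQ3_10l.set 1 ((btQ3_10l.getD 1 (0, 1, 1)).1, (3), (btQ3_10l.getD 1 (0, 1, 1)).2.2)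

def btQ3_11r : List (ℤ × ℤ × ℕ) := btQ3_10l.set 1 ((3), (btQ3_10l.getD 1 (0, 1, 1)).2.1, (btQ3_10l.getD 1 (0, 1, 1)).2.2)

end Vale.Agent.Lib.P154.Neg.B4765
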